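import Mathlib

/-! Fourier analysis on the discrete cube, elementary part. -/

namespace Vale.Agent.Lib.Helper2.Cube

open Finset

variable {n : ℕ}

/-- The character `χ_S(x) = ∏_{i ∈ S} x_i` on sign vectors. -/
def chi (S : Finset (Fin n)) (x : Fin n → ℤˣ) : ℝ := ∏ i ∈ S, ((x i : ℤ) : ℝ)

/-- The Fourier coefficient `E[f(X) χ_S(X)]` for `X` uniform on the sign vectors: the sum of
`f(x) χ_S(x)` over all sign vectors `x`, divided by the number of sign vectors. -/
noncomputable def fhat (f : (Fin n → ℤˣ) → ℝ) (S : Finset (Fin n)) : ℝ :=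
  (∑ x, f x * chi S x) / (Fintype.card (Fin n → ℤˣ) : ℝ)

theorem card_cube : (Fintype.card (Fin n → ℤˣ) : ℝ) = 2 ^ n := by
  rw [Fintype.card_fun, Fintype.card_units_int, Fintype.card_fin]
  push_cast
  rfl

theorem fhat_eq (f : (Fin n → ℤˣ) → ℝ) (S : Finset (Fin n)) :
    fhat f S = (∑ x, f x * chi S x) / 2 ^ n := by
  unfold fhat
  rw [card_cube]

theorem unit_cast_sq (u : ℤˣ) : ((u : ℤ) : ℝ) * ((u : ℤ) : ℝ) = 1 := by
  rcases Int.units_eq_one_or u with h | h <;> simp [h]

theorem unit_cast_abs (u : ℤˣ) : |((u : ℤ) : ℝ)| = 1 := by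
  rcases Int.units_eq_one_or u with h | h <;> simp [h]

theorem sum_units (g : ℤˣ → ℝ) : ∑ u : ℤˣ, g u = g 1 + g (-1) := by
  have : (Finset.univ : Finset ℤˣ) = {1, -1} := by decide
  rw [this, Finset.sum_pair (by decide)]

theorem chi_eq (S : Finset (Fin n)) (x : Fin n → ℤˣ) :
    chi S x = ∏ i, (if i ∈ S then ((x i : ℤ) : ℝ) else 1) := by
  unfold chi
  rw [Fintype.prod_ite_mem]

theorem chi_mul (S T : Finset (Fin n)) (x : Fin n → ℤˣ) :
    chi S x * chi T x = chi (symmDiff S T) x := by
  rw [chi_eq, chi_eq, chi_eq, ← Finset.prod_mul_distrib]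
  apply Finset.prod_congr rfl
  intro i _
  by_cases hS : i ∈ S <;> by_cases hT : i ∈ T <;>
    simp [hS, hT, Finset.mem_symmDiff, unit_cast_sq]

theorem chi_empty (x : Fin n → ℤˣ) : chi ∅ x = 1 := by simp [chi]

theorem chi_abs (S : Finset (Fin n)) (x : Fin n → ℤˣ) : |chi S x| = 1 := by
  unfold chi
  rw [Finset.abs_prod]
  simp [unit_cast_abs]

theorem chi_sq (S : Finset (Fin n)) (x : Fin n → ℤˣ) : chi S x * chi S x = 1 := by
  rw [chi_mul]; simp [chi_empty]

theorem sum_chi (S : Finset (Fin n)) :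
    ∑ x : Fin n → ℤˣ, chi S x = if S = ∅ then (2 : ℝ) ^ n else 0 := by
  simp_rw [chi_eq]
  rw [← Fintype.prod_sum (fun (i : Fin n) (u : ℤˣ) => if i ∈ S then ((u : ℤ) : ℝ) else 1)]
  split_ifs with h
  · subst h
    simp
  · obtain ⟨i, hi⟩ := Finset.nonempty_iff_ne_empty.mpr h
    apply Finset.prod_eq_zero (Finset.mem_univ i)
    simp [hi]

theorem sum_chi_mul_chi (x y : Fin n → ℤˣ) :
    ∑ S : Finset (Fin n), chi S x * chi S y = if x = y then (2 : ℝ) ^ n else 0 := by
  have h1 : ∀ S : Finset (Fin n), chi S x * chi S y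
      = ∏ i ∈ S, (((x i : ℤ) : ℝ) * ((y i : ℤ) : ℝ)) := by
    intro S; unfold chi; rw [Finset.prod_mul_distrib]
  simp_rw [h1]
  have h2 := Finset.prod_one_add (f := fun i => ((x i : ℤ) : ℝ) * ((y i : ℤ) : ℝ))
    (Finset.univ : Finset (Fin n))
  rw [Finset.powerset_univ] at h2
  rw [← h2]
  split_ifs with h
  · subst h
    simp [unit_cast_sq]
    norm_num
  · have : ∃ i, x i ≠ y i := by
      by_contra hcon
      push Not at hcon
      exact h (funext hcon)
    obtain ⟨i, hi⟩ := this
    apply Finset.prod_eq_zero (Finset.mem_univ i)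
    rcases Int.units_eq_one_or (x i) with hx | hx <;>
      rcases Int.units_eq_one_or (y i) with hy | hy <;> simp_all

/-- Fourier inversion. -/
theorem inversion (f : (Fin n → ℤˣ) → ℝ) (x : Fin n → ℤˣ) :
    f x = ∑ S, fhat f S * chi S x := by
  simp only [fhat_eq]
  have : ∀ S : Finset (Fin n), (∑ y, f y * chi S y) / 2 ^ n * chi S x
      = ∑ y, f y * (chi S y * chi S x) / 2 ^ n := by
    intro S
    rw [Finset.sum_div, Finset.sum_mul]
    apply Finset.sum_congr rfl
    intro y _
    ring
  simp_rw [this]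
  rw [Finset.sum_comm]
  have h2 : ∀ y : Fin n → ℤˣ, ∑ S : Finset (Fin n), f y * (chi S y * chi S x) / 2 ^ n
      = f y * (if y = x then (2 : ℝ) ^ n else 0) / 2 ^ n := by
    intro y
    rw [← sum_chi_mul_chi, Finset.mul_sum, Finset.sum_div]
  simp_rw [h2]
  rw [Finset.sum_eq_single x]
  · simp
  · intro y _ hy; simp [hy]
  · intro h; exact absurd (Finset.mem_univ x) h

/-- Plancherel. -/
theorem plancherel (f g : (Fin n → ℤˣ) → ℝ) :
    (∑ x, f x * g x) / 2 ^ n = ∑ S, fhat f S * fhat g S := by
  have h1 : ∀ x, f x * g x = ∑ S, fhat f S * (g x * chi S x) := by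
    intro x
    conv_lhs => rw [inversion f x]
    rw [Finset.sum_mul]
    apply Finset.sum_congr rfl
    intro S _; ring
  simp_rw [h1]
  rw [Finset.sum_comm, Finset.sum_div]
  apply Finset.sum_congr rfl
  intro S _
  simp only [fhat_eq]
  rw [← Finset.mul_sum]
  ring

/-- Flip the `i`-th coordinate. -/
def flip (i : Fin n) (x : Fin n → ℤˣ) : Fin n → ℤˣ := Function.update x i (-(x i))

theorem flip_flip (i : Fin n) (x : Fin n → ℤˣ) : flip i (flip i x) = x := by
  unfold flip
  simp

theorem flip_involutive (i : Fin n) : Function.Involutive (flip (n := n) i) := flip_flip i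

theorem chi_flip (i : Fin n) (S : Finset (Fin n)) (x : Fin n → ℤˣ) :
    chi S (flip i x) = (if i ∈ S then -1 else 1) * chi S x := by
  rw [chi_eq, chi_eq]
  have hi : i ∈ (Finset.univ : Finset (Fin n)) := Finset.mem_univ i
  rw [← Finset.mul_prod_erase _ _ hi, ← Finset.mul_prod_erase _ _ hi]
  have h1 : ∏ j ∈ Finset.univ.erase i, (if j ∈ S then (((flip i x) j : ℤ) : ℝ) else 1)
      = ∏ j ∈ Finset.univ.erase i, (if j ∈ S then ((x j : ℤ) : ℝ) else 1) := by
    apply Finset.prod_congr rfl
    intro j hj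
    have hji : j ≠ i := Finset.ne_of_mem_erase hj
    simp [flip, Function.update_of_ne hji]
  rw [h1]
  by_cases h : i ∈ S
  · simp [h, flip]
  · simp [h]

theorem sum_flip (i : Fin n) (g : (Fin n → ℤˣ) → ℝ) :
    ∑ x, g (flip i x) = ∑ x, g x :=
  Fintype.sum_equiv (flip_involutive i).toPerm _ _ (fun _ => rfl)

theorem fhat_flip (i : Fin n) (f : (Fin n → ℤˣ) → ℝ) (S : Finset (Fin n)) :
    fhat (fun x => f (flip i x)) S = (if i ∈ S then -1 else 1) * fhat f S := by
  simp only [fhat_eq]
  rw [← sum_flip i (fun x => f (flip i x) * chi S x)]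
  simp_rw [chi_flip, flip_flip]
  rw [← mul_div_assoc, Finset.mul_sum]
  congr 1
  apply Finset.sum_congr rfl
  intro x _
  ring

theorem fhat_chi_mul (i : Fin n) (f : (Fin n → ℤˣ) → ℝ) (S : Finset (Fin n)) :
    fhat (fun x => chi {i} x * f x) S = fhat f (symmDiff S {i}) := by
  simp only [fhat_eq]
  congr 1
  apply Finset.sum_congr rfl
  intro x _
  rw [← chi_mul]
  ring

theorem fhat_sub (f g : (Fin n → ℤˣ) → ℝ) (S : Finset (Fin n)) :
    fhat (fun x => f x - g x) S = fhat f S - fhat g S := by
  simp only [fhat_eq]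
  rw [← sub_div, ← Finset.sum_sub_distrib]
  congr 1
  apply Finset.sum_congr rfl
  intro x _
  ring

/-- Granularity: an integer-valued function all of whose Fourier coefficients above level `d`
vanish has all Fourier coefficients in `2^(-d) ℤ`. -/
theorem granular : ∀ (d : ℕ) (f : (Fin n → ℤˣ) → ℝ), (∀ x, ∃ m : ℤ, f x = m) →
    (∀ S : Finset (Fin n), d < S.card → fhat f S = 0) →
    ∀ S : Finset (Fin n), ∃ m : ℤ, fhat f S * 2 ^ d = m := by
  intro d
  induction d with
  | zero =>
    intro f hf hdeg S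
    by_cases hS : S = ∅
    · subst hS
      have hinv := inversion f (fun _ => 1)
      rw [Finset.sum_eq_single ∅] at hinv
      · obtain ⟨m, hm⟩ := hf (fun _ => 1)
        refine ⟨m, ?_⟩
        rw [← hm, hinv, chi_empty]
        ring
      · intro T _ hT
        rw [hdeg T (Finset.card_pos.mpr (Finset.nonempty_iff_ne_empty.mpr hT)), zero_mul]
      · intro h; exact absurd (Finset.mem_univ _) h
    · refine ⟨0, ?_⟩
      rw [hdeg S (Finset.card_pos.mpr (Finset.nonempty_iff_ne_empty.mpr hS))]
      simp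
  | succ d ih =>
    intro f hf hdeg
    have key : ∀ S : Finset (Fin n), S ≠ ∅ → ∃ m : ℤ, fhat f S * 2 ^ (d + 1) = m := by
      intro S hS
      obtain ⟨i, hi⟩ := Finset.nonempty_iff_ne_empty.mpr hS
      let h : (Fin n → ℤˣ) → ℝ := fun x => chi {i} x * (f x - f (flip i x))
      have hh : ∀ T : Finset (Fin n), fhat h T
          = (1 - (if i ∈ symmDiff T {i} then -1 else 1)) * fhat f (symmDiff T {i}) := by
        intro T
        have e1 : fhat h T = fhat (fun x => f x - f (flip i x)) (symmDiff T {i}) :=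
          fhat_chi_mul i (fun x => f x - f (flip i x)) T
        rw [e1, fhat_sub, fhat_flip]
        ring
      have hint : ∀ x, ∃ m : ℤ, h x = m := by
        intro x
        obtain ⟨a, ha⟩ := hf x
        obtain ⟨b, hb⟩ := hf (flip i x)
        have hc : chi {i} x = ((x i : ℤ) : ℝ) := by simp [chi]
        refine ⟨(x i : ℤ) * (a - b), ?_⟩
        simp only [h]
        rw [ha, hb, hc]
        push_cast
        ring
      have hdegh : ∀ T : Finset (Fin n), d < T.card → fhat h T = 0 := by
        intro T hT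
        rw [hh]
        by_cases hiT : i ∈ T
        · have : i ∉ symmDiff T {i} := by simp [Finset.mem_symmDiff, hiT]
          simp [this]
        · have hsd : symmDiff T {i} = insert i T := by
            ext j
            simp only [Finset.mem_symmDiff, Finset.mem_singleton, Finset.mem_insert]
            constructor
            · rintro (⟨h1, _⟩ | ⟨h1, _⟩)
              · exact Or.inr h1
              · exact Or.inl h1
            · rintro (h1 | h1)
              · right; exact ⟨h1, fun h2 => hiT (h1 ▸ h2)⟩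
              · left; exact ⟨h1, fun h2 => hiT (h2 ▸ h1)⟩
          rw [hsd, hdeg (insert i T) (by rw [Finset.card_insert_of_notMem hiT]; omega)]
          simp
      obtain ⟨m, hm⟩ := ih h hint hdegh (S.erase i)
      have hsd : symmDiff (S.erase i) {i} = S := by
        ext j
        simp only [Finset.mem_symmDiff, Finset.mem_singleton, Finset.mem_erase]
        constructor
        · rintro (⟨⟨_, h1⟩, _⟩ | ⟨h1, _⟩)
          · exact h1
          · exact h1 ▸ hi
        · intro h1
          by_cases hji : j = i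
          · right; exact ⟨hji, fun h2 => h2.1 hji⟩
          · left; exact ⟨⟨hji, h1⟩, hji⟩
      rw [hh, hsd] at hm
      simp only [hi, if_true] at hm
      refine ⟨m, ?_⟩
      rw [← hm]
      ring
    intro S
    by_cases hS : S = ∅
    · subst hS
      have hinv := inversion f (fun _ => 1)
      have hchi1 : ∀ T : Finset (Fin n), chi T (fun _ => (1 : ℤˣ)) = 1 := by
        intro T; simp [chi]
      simp_rw [hchi1, mul_one] at hinv
      rw [← Finset.add_sum_erase _ _ (Finset.mem_univ (∅ : Finset (Fin n)))] at hinv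
      obtain ⟨a, ha⟩ := hf (fun _ => 1)
      choose! g hg using key
      refine ⟨a * 2 ^ (d + 1) - ∑ T ∈ Finset.univ.erase (∅ : Finset (Fin n)), g T, ?_⟩
      have : fhat f ∅ = f (fun _ => 1) - ∑ T ∈ Finset.univ.erase (∅ : Finset (Fin n)),
          fhat f T := by linarith
      rw [this, sub_mul, Finset.sum_mul, ha]
      push_cast
      congr 1
      apply Finset.sum_congr rfl
      intro T hT
      exact hg T (Finset.ne_of_mem_erase hT)
    · exact key S hS

end Vale.Agent.Lib.Helper2.Cube
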